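import Crest.Agent.X212.Cut54.Glue
import Crest.Agent.X212.M.Rel
import Crest.Agent.X212.Lns95.Pos
import Crest.Agent.X212.Lns95.Dsc

-- ▼ part X212/Lns95/Onv
section

/-!
# X212 / LENS (helper95), part Onv: orthonormal coframes of a spanning family; the model covectors
-/

open scoped ComplexConjugate Matrix
open Finset Module Complex

set_option autoImplicit false
set_option linter.unusedSectionVars false

noncomputable section
namespace Crest.Agent.X212.Lns95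
open Crest.Agent.R208.F (Ext evA)
open Met55 (Co Sp IsP mix)
open Int54 (tp IsU)
open Cut54 (w4 cw4)
open M (cm)

section on
variable {E : Type} [NormedAddCommGroup E] [NormedSpace ℝ E] [FiniteDimensional ℝ E]
  {ι κ : Type} [Fintype ι] [Fintype κ] {α β : Fin 4 → E →ₗ[ℝ] ℝ} {v : ι → E} {w : κ → E}

/-- the covectors `α` are orthonormal for the cometric of `v` -/
def Onv (α : Fin 4 → E →ₗ[ℝ] ℝ) (v : ι → E) : Prop :=
  ∀ i j, cm v (α i) (α j) = if i = j then 1 else 0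

theorem Onv.of_co (h : Onv α v) (hc : Co v w) : Onv α w := fun i j => (hc _ _).symm.trans (h i j)

theorem on_rot {A B : Fin 4 → ι → ℝ} (h : ∀ i j, ∑ a, A i a * A j a = if i = j then 1 else 0)
    {R : Fin 4 → Fin 4 → ℝ} (hR : ∀ i j, ∑ k, R i k * R j k = if i = j then 1 else 0)
    (e : ∀ i a, B i a = ∑ k, R i k * A k a) (i j : Fin 4) :
    ∑ a, B i a * B j a = if i = j then 1 else 0 := by
  have : ∀ k l, ∑ a, R i k * A k a * (R j l * A l a) = R i k * R j l * if k = l then 1 else 0 :=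
    fun k l => by rw [← h k l, mul_sum]; exact sum_congr rfl fun a _ => by ring
  simp only [e, sum_mul_sum]
  rw [sum_comm, ← hR]
  refine sum_congr rfl fun k _ => ?_
  rw [sum_comm]
  simp [this]

theorem Onv.exp (h : Onv α v) (h4 : finrank ℝ E = 4) (x : E) :
    x = ∑ i, α i x • ∑ a, α i (v a) • v a := by
  have e : ∀ (c : Fin 4 → ℝ) j, α j (∑ i, c i • ∑ a, α i (v a) • v a) = c j := fun c j => by
    have : ∀ i, ∑ a, α i (v a) * α j (v a) = if i = j then 1 else 0 := fun i => h i j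
    simp [this]
  have hs : Function.Surjective (LinearMap.pi α) := fun c => ⟨_, funext (e c)⟩
  exact (LinearMap.injective_iff_surjective_of_finrank_eq_finrank (by simp [h4])).2 hs
    (funext fun j => (e _ j).symm)

theorem Onv.sp (h : Onv α v) (h4 : finrank ℝ E = 4) : Sp v := fun x =>
  ⟨fun a => ∑ i, α i x * α i (v a), (h.exp h4 x).trans (by
    simp only [smul_sum, sum_smul, mul_smul]; exact sum_comm)⟩

theorem Onv.co (h : Onv α v) (h4 : finrank ℝ E = 4) (h' : Onv α w) : Co v w := fun γ δ => by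
  set K : Fin 4 → E := fun i => ∑ a, α i (v a) • v a
  have e : ∀ (γ : E →ₗ[ℝ] ℝ) x, γ x = ∑ i, γ (K i) * α i x := fun γ x => by
    conv_lhs => rw [h.exp h4 x, map_sum]
    exact sum_congr rfl fun i _ => by rw [map_smul, smul_eq_mul, mul_comm]
  have k : ∀ {σ : Type} [Fintype σ] (u : σ → E), ∑ a, γ (u a) * δ (u a) =
      ∑ i, ∑ j, γ (K i) * δ (K j) * cm u (α i) (α j) := fun u => by
    simp only [fun a => e γ (u a), fun a => e δ (u a), sum_mul_sum]
    simp only [cm, mul_sum]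
    rw [sum_comm]
    refine sum_congr rfl fun i _ => ?_
    rw [sum_comm]
    exact sum_congr rfl fun j _ => sum_congr rfl fun a _ => by ring
  rw [k, k]
  simp only [h _ _, h' _ _]

theorem Onv.on0 (h : Onv α v) (h4 : finrank ℝ E = 4) {P : Matrix ι ι ℝ} (hP : IsP v P) :
    Wz78.On0 (fun a b => P a b) fun i a => α i (v a) := by
  refine ⟨h, fun a b => ?_⟩
  have : IsP v (Matrix.of fun a b => ∑ i, α i (v a) * α i (v b)) := by
    refine ⟨by ext a b; simp [mul_comm], fun a => ?_, fun c hc => funext fun a => ?_⟩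
    · conv_rhs => rw [h.exp h4 (v a)]
      simp only [Matrix.of_apply, smul_sum, sum_smul, mul_smul]; exact sum_comm
    · have : ∀ i, ∑ b, α i (v b) * c b = 0 := fun i => by
        simpa [mul_comm] using congrArg (α i) hc
      simp only [Matrix.mulVec, dotProduct, Matrix.of_apply, sum_mul, mul_assoc, Pi.zero_apply]
      rw [sum_comm]
      simp [← mul_sum, this]
  exact congrFun (congrFun (this.unique hP) a) b

theorem evA_w4 (α : Fin 4 → E →ₗ[ℝ] ℝ) (u : Fin 4 → E) :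
    evA E 4 (w4 α) u = (Matrix.of fun i j => α i (u j)).det := by
  rw [Cut54.w4_eq, R208.F.evA_iMulti, ← Matrix.det_transpose]; rfl

theorem Onv.isU (h : Onv α v) (h4 : finrank ℝ E = 4) : IsU v (w4 α) := by
  have := Int54.cauchy_binet (Matrix.of fun i a => α i (v a)) (Matrix.of fun i a => α i (v a))ᵀ
  rw [show (Matrix.of fun i a => α i (v a)) * (Matrix.of fun i a => α i (v a))ᵀ = 1 from
    Matrix.ext fun i j => (h i j).trans Matrix.one_apply.symm, Matrix.det_one, mul_one] at this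
  rw [Fintype.card_fin] at this
  rw [Int54.isU_iff_sum h4, ← this]
  refine sum_congr rfl fun Φ _ => ?_
  rw [← Matrix.transpose_submatrix, Matrix.det_transpose, ← sq]
  exact congrArg (· ^ 2) (evA_w4 α _)

theorem Onv.vol (h : Onv α v) (h4 : finrank ℝ E = 4) {c : Ext E} (hc : IsU v c)
    (ho : 0 < tp E c * tp E (w4 α)) (a b k l : ι) :
    evA E 4 c ![v a, v b, v k, v l] = Wz78.vol (fun i a => α i (v a)) a b k l := by
  rw [Int54.evA_congr_tp h4 (hc.tp_eq (h.isU h4) ho), evA_w4, Matrix.det_succ_row_zero]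
  simp [Fin.sum_univ_four, Matrix.det_fin_three, Wz78.vol, Ind95.E4_eq, Fin.succAbove]
  ring

/-- the Gram matrix of covectors -/
def gr (α : Fin 4 → E →ₗ[ℝ] ℝ) (v : ι → E) : Matrix (Fin 4) ι ℝ := Matrix.of fun i a => α i (v a)

theorem det_gr (h4 : finrank ℝ E = 4) (hv : Sp v) (h : tp E (w4 α) ≠ 0) :
    (gr α v * (gr α v)ᵀ).det ≠ 0 := by
  have e := Cut54.evA_sharp h4 v (w4 α) α
  rw [evA_w4, ← Cut54.w4_eq] at e
  rw [show gr α v * (gr α v)ᵀ = Matrix.of fun i j => α i (∑ a, α j (v a) • v a) from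
    Matrix.ext fun i j => by simp [gr, Matrix.mul_apply, mul_comm], e]
  exact mul_ne_zero hv.det_pos.ne' (mul_ne_zero h h)

theorem onv_dual (h : (gr α v * (gr α v)ᵀ).det ≠ 0) :
    Onv α (mix ((gr α v * (gr α v)ᵀ)⁻¹ * gr α v) v) := fun i j => by
  have e : ∀ i j, α i (mix ((gr α v * (gr α v)ᵀ)⁻¹ * gr α v) v j) = if j = i then 1 else 0 := fun i j => by
    rw [← Matrix.one_apply, ← Matrix.nonsing_inv_mul _ (Ne.isUnit h), ← Matrix.mul_assoc,
      Matrix.mul_apply]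
    simp [mix, gr]
  simp [cm, e, eq_comm]

/-- real and imaginary parts -/
def l4 (a b : E →ₗ[ℝ] ℂ) : Fin 4 → E →ₗ[ℝ] ℝ := ![reLm ∘ₗ a, imLm ∘ₗ a, reLm ∘ₗ b, imLm ∘ₗ b]

theorem Onv.unit {a b a' b' : E →ₗ[ℝ] ℂ} (h : Onv (l4 a b) v) {p q : ℂ} (hp : ‖p‖ = 1) (hq : ‖q‖ = 1)
    (e : ∀ x, a' x = p * a x) (e' : ∀ x, b' x = q * b x) : Onv (l4 a' b') v := by
  have h1 : p.re * p.re + p.im * p.im = 1 := by rw [← normSq_apply, normSq_eq_norm_sq, hp, one_pow]
  have h2 : q.re * q.re + q.im * q.im = 1 := by rw [← normSq_apply, normSq_eq_norm_sq, hq, one_pow]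
  refine on_rot h (R := ![![p.re, -p.im, 0, 0], ![p.im, p.re, 0, 0], ![0, 0, q.re, -q.im],
    ![0, 0, q.im, q.re]]) (fun i j => ?_) fun i x => ?_
  · fin_cases i <;> fin_cases j <;> simp [Fin.sum_univ_four] <;> linarith
  · fin_cases i <;> simp [Fin.sum_univ_four, l4, e, e'] <;> ring

theorem tp_w4 (h4 : finrank ℝ E = 4) {R : Fin 4 → Fin 4 → ℝ} (e : ∀ i x, β i x = ∑ k, R i k * α k x) :
    tp E (w4 β) = (Matrix.of R).det * tp E (w4 α) := by
  rw [Int54.tp_apply, Int54.tp_apply, ← Int54.evA_cast h4, ← Int54.evA_cast h4, evA_w4, evA_w4,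
    ← Matrix.det_mul]
  congr 1
  ext i j
  simp [e, Matrix.mul_apply]

end on

/-! ### the model covectors on `ℂ × ℂ` -/

/-- `Im (conj u du)` -/
def lm (u : ℂ) : ℂ →ₗ[ℝ] ℝ := imLm ∘ₗ LinearMap.mulLeft ℝ (conj u)

/-- `Re (conj u du)` -/
def lr (u : ℂ) : ℂ →ₗ[ℝ] ℝ := reLm ∘ₗ LinearMap.mulLeft ℝ (conj u)

theorem lm_apply (u d : ℂ) : lm u d = u.re * d.im - u.im * d.re := by simp [lm]; ring
theorem lr_apply (u d : ℂ) : lr u d = u.re * d.re + u.im * d.im := by simp [lr]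

/-- `√(1 - |u|²)` -/
def sq1 (u : ℂ) : ℝ := √(1 - ‖u‖ ^ 2)

/-- the base covector `s du - u ds` -/
def lB (u : ℂ) : ℂ →ₗ[ℝ] ℂ := sq1 u • LinearMap.id + (sq1 u)⁻¹ • (lr u).smulRight u

/-- the fibre covector `p (dw + i n w μ) + q w d|w|²` -/
def lF (n p q : ℝ) (u w : ℂ) : ℂ × ℂ →ₗ[ℝ] ℂ :=
  p • (LinearMap.snd ℝ ℂ ℂ + n • (lm u ∘ₗ LinearMap.fst ℝ ℂ ℂ).smulRight (I * w)) +
    (2 * q) • (lr w ∘ₗ LinearMap.snd ℝ ℂ ℂ).smulRight w

/-- the form `σ₁` -/
def ls (n : ℝ) (u w : ℂ) : ℂ × ℂ →ₗ[ℝ] ℝ :=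
  lm u ∘ₗ LinearMap.fst ℝ ℂ ℂ + (n * ‖w‖ ^ 2)⁻¹ • lm w ∘ₗ LinearMap.snd ℝ ℂ ℂ

/-- the fibre covector `h d|w|² + i f σ₁` -/
def lG (n h f : ℝ) (u w : ℂ) : ℂ × ℂ →ₗ[ℝ] ℂ :=
  (2 * h) • (lr w ∘ₗ LinearMap.snd ℝ ℂ ℂ).smulRight 1 + f • (ls n u w).smulRight I

theorem lB_apply (u d : ℂ) : lB u d = sq1 u * d + (lr u d / sq1 u : ℝ) * u := by
  simp [lB]; ring

theorem lF_apply (n p q : ℝ) (u w : ℂ) (d : ℂ × ℂ) :
    lF n p q u w d = p * (d.2 + n * lm u d.1 * (I * w)) + 2 * q * lr w d.2 * w := by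
  simp [lF]; ring

theorem ls_apply (n : ℝ) (u w : ℂ) (d : ℂ × ℂ) : ls n u w d = lm u d.1 + lm w d.2 / (n * ‖w‖ ^ 2) := by
  simp [ls]; ring

theorem lG_re (n h f : ℝ) (u w : ℂ) (d : ℂ × ℂ) : (lG n h f u w d).re = 2 * h * lr w d.2 := by
  simp [lG]

theorem lG_im (n h f : ℝ) (u w : ℂ) (d : ℂ × ℂ) : (lG n h f u w d).im = f * ls n u w d := by
  simp [lG]

/-- the covariant derivative of the fibre coordinate -/
def lD (n : ℝ) (u w : ℂ) (d : ℂ × ℂ) : ℂ := d.2 + n * lm u d.1 * (I * w)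

theorem nsq (w : ℂ) : ‖w‖ ^ 2 = w.re ^ 2 + w.im ^ 2 := by rw [← normSq_eq_norm_sq, normSq_apply]; ring

theorem lr_lD (n : ℝ) (u w : ℂ) (d : ℂ × ℂ) : lr w (lD n u w d) = lr w d.2 := by
  simp [lD, lr_apply]; ring

theorem lm_lD {n : ℝ} (hn : n ≠ 0) (u : ℂ) {w : ℂ} (hw : w ≠ 0) (d : ℂ × ℂ) :
    ls n u w d = lm w (lD n u w d) / (n * ‖w‖ ^ 2) := by
  have h0 : ‖w‖ ≠ 0 := norm_ne_zero_iff.2 hw
  rw [ls_apply, lD, map_add, lm_apply w (_ * _)]
  generalize lm u d.1 = m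
  simp
  field_simp
  linear_combination (n * m) * nsq w

theorem lr_unit {p : ℂ} (hp : ‖p‖ = 1) (z d : ℂ) : lr (z * p) (d * p) = lr z d := by
  have := nsq p
  rw [hp] at this
  simp only [lr_apply, mul_re, mul_im]
  linear_combination (-(z.re * d.re + z.im * d.im)) * this

theorem lm_unit {p : ℂ} (hp : ‖p‖ = 1) (z d : ℂ) : lm (z * p) (d * p) = lm z d := by
  have := nsq p
  rw [hp] at this
  simp only [lm_apply, mul_re, mul_im]
  linear_combination (-(z.re * d.im - z.im * d.re)) * this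

theorem sq1_pos {u : ℂ} (h : ‖u‖ < 1) : 0 < sq1 u :=
  Real.sqrt_pos.2 (by nlinarith [norm_nonneg u])

theorem sq1_sq {u : ℂ} (h : ‖u‖ < 1) : sq1 u ^ 2 = 1 - (u.re ^ 2 + u.im ^ 2) := by
  rw [sq1, Real.sq_sqrt (by nlinarith [norm_nonneg u]), nsq]

theorem lG_eq {n p q : ℝ} (hn : n ≠ 0) (u : ℂ) {w : ℂ} (hw : w ≠ 0) (d : ℂ × ℂ) :
    lG n ((p + 2 * ‖w‖ ^ 2 * q) / (2 * ‖w‖)) (n * ‖w‖ * p) u w d = conj w / ‖w‖ * lF n p q u w d := by
  have h0 : ‖w‖ ≠ 0 := norm_ne_zero_iff.2 hw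
  have h1 := (nsq w).symm
  rw [lF_apply, div_mul_eq_mul_div, eq_div_iff (ofReal_ne_zero.2 h0)]
  apply Complex.ext <;> simp only [re_mul_ofReal, im_mul_ofReal, lG_re, lG_im, ls_apply] <;>
    generalize lm u d.1 = m <;> simp [lm_apply, lr_apply] <;> field_simp
  · linear_combination (-(2 * q * (w.re * d.2.re + w.im * d.2.im))) * h1
  · linear_combination (-(n * p * m)) * h1

section tp
variable {E : Type} [NormedAddCommGroup E] [NormedSpace ℝ E] [FiniteDimensional ℝ E]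
  (h4 : finrank ℝ E = 4) (a b : E →ₗ[ℝ] ℂ) {u : ℂ} (hu : ‖u‖ < 1)
include h4 hu

theorem tp_lF (n p q : ℝ) (w : ℂ) : tp E (w4 (l4 (lF n p q u w ∘ₗ a.prod b) (lB u ∘ₗ a))) =
    p * (p + 2 * ‖w‖ ^ 2 * q) * tp E (cw4 a b) := by
  have h0 := (sq1_pos hu).ne'
  have h1 := sq1_sq hu
  have h2 := nsq w
  rw [tp_w4 h4 (α := l4 a b) (R := ![![p * n * w.im * u.im, -(p * n * w.im * u.re), p + 2 * q * w.re ^ 2,
    2 * q * w.re * w.im], ![-(p * n * w.re * u.im), p * n * w.re * u.re, 2 * q * w.re * w.im,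
    p + 2 * q * w.im ^ 2], ![sq1 u + u.re ^ 2 / sq1 u, u.re * u.im / sq1 u, 0, 0],
    ![u.re * u.im / sq1 u, sq1 u + u.im ^ 2 / sq1 u, 0, 0]]) fun i x => ?_]
  · congr 1
    rw [Matrix.det_succ_row_zero, h2]
    simp [Fin.sum_univ_four, Matrix.det_fin_three, Fin.succAbove]
    field_simp
    linear_combination (p * (p + 2 * (w.re ^ 2 + w.im ^ 2) * q) * sq1 u ^ 2) * h1
  · fin_cases i <;> simp [Fin.sum_univ_four, l4, lF_apply, lB_apply, lm_apply, lr_apply] <;> ring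

theorem tp_lG {n : ℝ} (hn : n ≠ 0) (h f : ℝ) {w : ℂ} (hw : w ≠ 0) :
    tp E (w4 (l4 (lG n h f u w ∘ₗ a.prod b) (lB u ∘ₗ a))) = 2 * h * f / n * tp E (cw4 a b) := by
  have h0 := (sq1_pos hu).ne'
  have h1 := sq1_sq hu
  have h2 := nsq w
  have h3 : w.re ^ 2 + w.im ^ 2 ≠ 0 := h2 ▸ pow_ne_zero 2 (norm_ne_zero_iff.2 hw)
  rw [tp_w4 h4 (α := l4 a b) (R := ![![0, 0, 2 * h * w.re, 2 * h * w.im], ![-(f * u.im), f * u.re,
    -(f * w.im / (n * ‖w‖ ^ 2)), f * w.re / (n * ‖w‖ ^ 2)],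
    ![sq1 u + u.re ^ 2 / sq1 u, u.re * u.im / sq1 u, 0, 0],
    ![u.re * u.im / sq1 u, sq1 u + u.im ^ 2 / sq1 u, 0, 0]]) fun i x => ?_]
  · congr 1
    rw [Matrix.det_succ_row_zero, h2]
    simp [Fin.sum_univ_four, Matrix.det_fin_three, Fin.succAbove]
    field_simp
    linear_combination (h * f * (w.re ^ 2 + w.im ^ 2) * sq1 u ^ 2) * h1
  · fin_cases i <;>
      simp [Fin.sum_univ_four, l4, lG_re, lG_im, ls_apply, lB_apply, lm_apply, lr_apply] <;> ring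

end tp

end Crest.Agent.X212.Lns95
end
end

-- ▼ part X212/Lns95/Cof

/-!
# X212 / LENS (helper95), part Cof: the model coframes of a chart `(u, w)` and their structure equations
-/

open scoped Manifold ContDiff Topology ComplexConjugate
open Finset Filter Complex

set_option autoImplicit false
set_option linter.unusedSectionVars false

noncomputable section
namespace Crest.Agent.X212.Lns95
open Sob92 Wz78
open Glue52 (dir)
open Line51 (dc dc_mul dc_add dc_star dc_congr dc_ofReal fsm_re fsm_im md_of)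
open Dr59 (mf)

variable {E H : Type} [NormedAddCommGroup E] [NormedSpace ℝ E] [FiniteDimensional ℝ E]
  [TopologicalSpace H] {I : ModelWithCorners ℝ E H} {M : Type} [TopologicalSpace M] [ChartedSpace H M]
  [IsManifold I ∞ M] {u w z₁ z₂ ρ : M → ℂ} {y : M}

variable (I) in
/-- the differential of `(u, w)` -/
def dP (u w : M → ℂ) (y : M) : E →ₗ[ℝ] ℂ × ℂ :=
  (dc I u y : E →ₗ[ℝ] ℂ).prod (dc I w y : E →ₗ[ℝ] ℂ)

variable (I) in
/-- the coframe that is smooth across `w = 0` -/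
def cvF (n p q : ℝ) (u w : M → ℂ) (y : M) : Fin 4 → E →ₗ[ℝ] ℝ :=
  l4 (lF n p q (u y) (w y) ∘ₗ dP I u w y) (lB (u y) ∘ₗ (dc I u y : E →ₗ[ℝ] ℂ))

variable (I) in
/-- the coframe `h d|w|², f σ₁, σ₂, σ₃` -/
def cvG (n h f : ℝ) (u w : M → ℂ) (y : M) : Fin 4 → E →ₗ[ℝ] ℝ :=
  l4 (lG n h f (u y) (w y) ∘ₗ dP I u w y) (lB (u y) ∘ₗ (dc I u y : E →ₗ[ℝ] ℂ))

theorem sa_nsq (hu : SA I u y) : SA I (fun y => ‖u y‖ ^ 2) y := Rod53.cm_nsq hu

theorem dv_re (hu : SA I u y) (X : Met55.VF I M) : dv I X (fun y => (u y).re) y = (dv I X u y).re :=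
  dv_clm reCLM hu.md

theorem dv_im (hu : SA I u y) (X : Met55.VF I M) : dv I X (fun y => (u y).im) y = (dv I X u y).im :=
  dv_clm imCLM hu.md

theorem dv_ofReal {r : M → ℝ} (hr : SA I r y) (X : Met55.VF I M) :
    dv I X (fun y => (r y : ℂ)) y = (dv I X r y : ℝ) := dv_clm ofRealCLM hr.md

theorem dv_nsq (hu : SA I u y) (X : Met55.VF I M) :
    dv I X (fun y => ‖u y‖ ^ 2) y = 2 * lr (u y) (dv I X u y) := by
  simp only [nsq]
  simp only [sq]
  rw [dv_add' (SA.mul (fsm_re hu) (fsm_re hu)) (SA.mul (fsm_im hu) (fsm_im hu)),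
    dv_mul (fsm_re hu) (fsm_re hu), dv_mul (fsm_im hu) (fsm_im hu), lr_apply, dv_re hu, dv_im hu]
  ring

theorem sa_sq1 (hu : SA I u y) (h : ‖u y‖ < 1) : SA I (fun y => sq1 (u y)) y :=
  (Real.contDiffAt_sqrt (by nlinarith [norm_nonneg (u y)])).comp_contMDiffAt
    (f := fun y => 1 - ‖u y‖ ^ 2) (contMDiffAt_const.sub (sa_nsq hu))

theorem dv_sq1 (hu : SA I u y) (h : ‖u y‖ < 1) (X : Met55.VF I M) :
    dv I X (fun y => sq1 (u y)) y = -(lr (u y) (dv I X u y) / sq1 (u y)) := by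
  have h0 : 1 - ‖u y‖ ^ 2 ≠ 0 := by nlinarith [norm_nonneg (u y)]
  have := dv_comp (e := X) (u := fun y => 1 - ‖u y‖ ^ 2) (SA.md (contMDiffAt_const.sub (sa_nsq hu)))
    (Real.hasDerivAt_sqrt h0).hasFDerivAt
  rw [dv_sub' contMDiffAt_const (sa_nsq hu), dv_nsq hu] at this
  refine this.trans ?_
  simp [sq1]; ring

/-- the coframe in terms of a local lift to the sphere -/
theorem lift {n : ℕ} (h1 : SA I z₁ y) (h2 : SA I z₂ y) (hρ : SA I ρ y) (h0 : z₂ y ≠ 0)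
    (hn : ∀ᶠ x in 𝓝 y, ‖z₁ x‖ ^ 2 + ‖z₂ x‖ ^ 2 = 1)
    (hu : u =ᶠ[𝓝 y] fun x => z₁ x * ((dir (z₂ x))⁻¹ : Circle))
    (hw : w =ᶠ[𝓝 y] fun x => ρ x * (dir (z₂ x) ^ n : Circle)) (X : Met55.VF I M) :
    lB (u y) (dv I X u y) =
      conj (dir (z₂ y) : ℂ) ^ 2 * (z₂ y * dv I X z₁ y - z₁ y * dv I X z₂ y) ∧
    lD n (u y) (w y) (dv I X u y, dv I X w y) = (dv I X ρ y +
      n * (lm (z₁ y) (dv I X z₁ y) + lm (z₂ y) (dv I X z₂ y) : ℝ) * (Complex.I * ρ y)) *
        (dir (z₂ y) : ℂ) ^ n := by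
  set ε : M → ℂ := fun x => dir (z₂ x) with hε
  have se : SA I ε y := Rod53.cm_coe (Rod53.cm_dir h2 h0)
  have sr : SA I (fun x => ‖z₂ x‖) y := Rod53.cm_norm h2 h0
  have sr' : SA I (fun x => ((‖z₂ x‖ : ℝ) : ℂ)) y := ofRealCLM.contDiff.contDiffAt.comp_contMDiffAt sr
  have n1 : ∀ x, ‖ε x‖ = 1 := fun x => Circle.norm_coe _
  have e0 : lr (ε y) (dv I X ε y) = 0 := by
    have := dv_nsq se X
    rw [show (fun x => ‖ε x‖ ^ 2) = fun _ => 1 from funext fun x => by rw [n1, one_pow], dv_const,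
      Pi.zero_apply] at this
    linarith
  have e1 : dv I X ε y = lm (ε y) (dv I X ε y) * Complex.I * ε y := by
    have := nsq (ε y)
    rw [n1] at this
    rw [lr_apply] at e0
    apply Complex.ext <;> simp [lm_apply]
    · linear_combination (ε y).re * e0 + (dv I X ε y).re * this
    · linear_combination (ε y).im * e0 + (dv I X ε y).im * this
  generalize lm (ε y) (dv I X ε y) = α at e1
  have e2 : dv I X z₂ y = ((dv I X (fun x => ‖z₂ x‖) y : ℝ) + ‖z₂ y‖ * α * Complex.I) * ε y := by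
    conv_lhs => rw [show z₂ = fun x => (‖z₂ x‖ : ℂ) * ε x from
      funext fun x => (Glue52.norm_mul_dir _).symm]
    rw [dv_mul sr' se, dv_ofReal sr, e1]
    ring
  generalize dv I X (fun x => ‖z₂ x‖) y = dr at e2
  have e3 : z₂ y = ‖z₂ y‖ * ε y := (Glue52.norm_mul_dir _).symm
  have hr : 0 < ‖z₂ y‖ := norm_pos_iff.2 h0
  have e4 : lr (z₁ y) (dv I X z₁ y) = -(‖z₂ y‖ * dr) := by
    have := dv_congr (I := I) (e := X) (hn : _ =ᶠ[𝓝 y] fun _ => (1 : ℝ))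
    rw [dv_add' (sa_nsq h1) (sa_nsq h2), dv_nsq h1, dv_nsq h2, dv_const, e2, Pi.zero_apply] at this
    nth_rewrite 1 [e3] at this
    rw [lr_unit (n1 y), lr_apply (‖z₂ y‖ : ℂ)] at this
    simp at this
    linarith
  have e5 : lm (z₂ y) (dv I X z₂ y) = ‖z₂ y‖ ^ 2 * α := by
    rw [e2]
    nth_rewrite 1 [e3]
    rw [lm_unit (n1 y), lm_apply]
    simp; ring
  have c1 : ‖conj (ε y)‖ = 1 := by rw [norm_conj, n1]
  replace hu : u =ᶠ[𝓝 y] fun x => z₁ x * star (ε x) :=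
    hu.mono fun x hx => hx.trans (congrArg _ (Circle.coe_inv_eq_conj _))
  replace hw : w =ᶠ[𝓝 y] fun x => ρ x * ε x ^ n :=
    hw.mono fun x hx => hx.trans (congrArg _ (Circle.coe_pow _ _))
  have u0 : u y = z₁ y * conj (ε y) := hu.self_of_nhds
  have u1 : dv I X u y = (dv I X z₁ y - α * Complex.I * z₁ y) * conj (ε y) := by
    rw [dv_congr hu, dv_mul h1 (Pj41.FSm.star' se),
      show dv I X (fun x => star (ε x)) y = _ from dv_clm (conjCLE : ℂ →L[ℝ] ℂ) se.md, e1]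
    simp; ring
  have w0 : w y = ρ y * ε y ^ n := hw.self_of_nhds
  have w1 : dv I X w y = (dv I X ρ y + n * α * Complex.I * ρ y) * ε y ^ n := by
    have p := dv_comp (e := X) se.md
      ((hasDerivAt_pow n (ε y)).hasFDerivAt.restrictScalars ℝ)
    rw [dv_congr hw, dv_mul hρ (g := fun x => ε x ^ n)
      ((contDiff_id.pow n).contDiffAt.comp_contMDiffAt se), p, e1]
    cases n <;> (simp; try ring)
  have s0 : sq1 (u y) = ‖z₂ y‖ := by
    rw [sq1, u0, norm_mul, c1, mul_one, ← hn.self_of_nhds, add_sub_cancel_left, Real.sqrt_sq hr.le]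
  have m0 : lm (u y) (dv I X u y) = lm (z₁ y) (dv I X z₁ y) - α * ‖z₁ y‖ ^ 2 := by
    rw [u0, u1, lm_unit c1, nsq]; simp [lm_apply]; ring
  have ee : ε y * conj (ε y) = 1 := by rw [mul_conj, normSq_eq_norm_sq, n1]; simp
  refine ⟨?_, ?_⟩
  · have : lr (u y) (dv I X u y) = -(‖z₂ y‖ * dr) := by
      rw [u0, u1, lr_unit c1, ← e4]; simp [lr_apply]; ring
    rw [lB_apply, this, s0, neg_div, mul_div_cancel_left₀ _ hr.ne', u0, u1, e2]
    push_cast
    linear_combination (-(conj (ε y)) * (‖z₂ y‖ * dv I X z₁ y - z₁ y * (dr + ‖z₂ y‖ * α * Complex.I))) * ee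
      - conj (ε y) ^ 2 * dv I X z₁ y * e3
  · have := congrArg ((↑) : ℝ → ℂ) hn.self_of_nhds
    rw [lD, m0, w1, w0, e5]
    push_cast at this ⊢
    linear_combination (-(n * α * Complex.I * ρ y * ε y ^ n)) * this

theorem lF_eq (n p q : ℝ) (u w : ℂ) (d : ℂ × ℂ) :
    lF n p q u w d = p * lD n u w d + 2 * q * lr w (lD n u w d) * w := by rw [lr_lD, lF_apply, lD]

section dsc
variable {o : M → R208.F.Ext E} {n : ℕ} {N : Set M} (D : Dsc I o n N) (hy : y ∈ D.O false ∩ D.O true)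
include hy

theorem Dsc.nw : ‖D.w true y‖ = ‖D.w false y‖ := by
  rw [D.tw y hy, norm_mul, Circle.norm_coe, mul_one]

theorem Dsc.ut : D.u true y = sq1 (D.u false y) * ((dir (D.u false y))⁻¹ : Circle) := by
  rw [← D.du y hy, sq1, ← D.nrm y hy, add_sub_cancel_left, Real.sqrt_sq (norm_nonneg _),
    Glue52.norm_mul_dir]

/-- the change of charts -/
theorem Dsc.chg (X : Met55.VF I M) :
    lB (D.u true y) (dv I X (D.u true) y) =
      -conj (dir (D.u false y) : ℂ) ^ 2 * lB (D.u false y) (dv I X (D.u false) y) ∧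
    lD n (D.u true y) (D.w true y) (dv I X (D.u true) y, dv I X (D.w true) y) =
      lD n (D.u false y) (D.w false y) (dv I X (D.u false) y, dv I X (D.w false) y) *
        (dir (D.u false y) : ℂ) ^ n := by
  have c := D.ch false
  have nb := ((D.ch false).op.inter (D.ch true).op).mem_nhds hy
  have s1 := sa_sq1 (c.su y hy.1) (c.lt y hy.1)
  obtain ⟨k1, k2⟩ := lift (n := n) (u := D.u true) (w := D.w true) (z₁ := fun x => (sq1 (D.u false x) : ℂ))
    (ofRealCLM.contDiff.contDiffAt.comp_contMDiffAt s1) (c.su y hy.1) (c.sw y hy.1) (D.ne false y hy)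
    (eventually_of_mem nb fun x hx => by
      rw [norm_real, Real.norm_eq_abs, sq_abs, sq1_sq (c.lt x hx.1), nsq]; ring)
    (eventually_of_mem nb fun x hx => D.ut hx) (eventually_of_mem nb D.tw) X
  rw [dv_ofReal s1, dv_sq1 (c.su y hy.1) (c.lt y hy.1)] at k1 k2
  refine ⟨k1.trans ?_, k2.trans ?_⟩
  · rw [lB_apply]; push_cast; ring
  · rw [lm_apply (_ : ℝ), ofReal_im, ofReal_im, lD]; simp

variable {ι : Type} [Fintype ι] {v : ι → E}

theorem Dsc.onF {p q : ℝ} : Onv (cvF I n p q (D.u true) (D.w true) y) v ↔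
    Onv (cvF I n p q (D.u false) (D.w false) y) v := by
  have h1 : ‖(dir (D.u false y) : ℂ) ^ n‖ = 1 := by rw [norm_pow, Circle.norm_coe, one_pow]
  have h2 : ‖-conj (dir (D.u false y) : ℂ) ^ 2‖ = 1 := by
    rw [norm_neg, norm_pow, norm_conj, Circle.norm_coe, one_pow]
  have e1 : ∀ x : E, (lF n p q (D.u true y) (D.w true y) ∘ₗ dP I (D.u true) (D.w true) y) x =
      (dir (D.u false y) : ℂ) ^ n *
        (lF n p q (D.u false y) (D.w false y) ∘ₗ dP I (D.u false) (D.w false) y) x := fun x => by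
    have := (D.chg hy fun _ => x).2
    refine (lF_eq ..).trans (Eq.trans ?_ (congrArg _ (lF_eq ..).symm))
    rw [show lD n _ _ (dP I (D.u true) (D.w true) y x) = lD n _ _ (dP I (D.u false) (D.w false) y x) * _
      from this, D.tw y hy, Circle.coe_pow, lr_unit h1]
    ring
  have e2 := fun x : E => (D.chg hy fun _ => x).1
  have i : ∀ {c : ℂ}, ‖c‖ = 1 → ∀ {a b : ℂ}, a = c * b → b = c⁻¹ * a := fun h a b e => by
    rw [e, inv_mul_cancel_left₀ (norm_ne_zero_iff.1 (h.trans_ne one_ne_zero))]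
  exact ⟨fun h => h.unit (by rw [norm_inv, h1, inv_one]) (by rw [norm_inv, h2, inv_one])
    (fun x => i h1 (e1 x)) fun x => i h2 (e2 x), fun h => h.unit h1 h2 e1 e2⟩

theorem Dsc.ls_eq (hn : n ≠ 0) (hw : D.w false y ≠ 0) (X : Met55.VF I M) :
    ls n (D.u true y) (D.w true y) (dv I X (D.u true) y, dv I X (D.w true) y) =
      ls n (D.u false y) (D.w false y) (dv I X (D.u false) y, dv I X (D.w false) y) := by
  have h1 : ‖(dir (D.u false y) : ℂ) ^ n‖ = 1 := by rw [norm_pow, Circle.norm_coe, one_pow]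
  rw [lm_lD (Nat.cast_ne_zero.2 hn) _ hw, lm_lD (Nat.cast_ne_zero.2 hn) _
    (norm_ne_zero_iff.1 (D.nw hy ▸ norm_ne_zero_iff.2 hw)), (D.chg hy X).2, D.nw hy, D.tw y hy,
    Circle.coe_pow, lm_unit h1]

end dsc

theorem onG_of_onF {ι : Type} [Fintype ι] {v : ι → E} {n p q : ℝ} (hn : n ≠ 0) (hw : w y ≠ 0)
    (h : Onv (cvF I n p q u w y) v) :
    Onv (cvG I n ((p + 2 * ‖w y‖ ^ 2 * q) / (2 * ‖w y‖)) (n * ‖w y‖ * p) u w y) v :=
  h.unit (p := conj (w y) / ‖w y‖) (q := 1) (by simp [hw]) norm_one (fun _ => lG_eq hn _ hw _)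
    fun _ => (one_mul _).symm

theorem onF_of_onG {ι : Type} [Fintype ι] {v : ι → E} {n p q : ℝ} (hn : n ≠ 0) (hw : w y ≠ 0)
    (h : Onv (cvG I n ((p + 2 * ‖w y‖ ^ 2 * q) / (2 * ‖w y‖)) (n * ‖w y‖ * p) u w y) v) :
    Onv (cvF I n p q u w y) v :=
  h.unit (p := (conj (w y) / ‖w y‖)⁻¹) (q := 1) (by simp [hw]) norm_one (fun _ => by
    rw [LinearMap.comp_apply, LinearMap.comp_apply, lG_eq hn _ hw, inv_mul_cancel_left₀ (by simp [hw])])
    fun _ => (one_mul _).symm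

/-! ### structure equations -/

section cz
variable {ι : Type} [Fintype ι] {e : ι → Met55.VF I M} {P : ι → ι → M → ℝ} {c : ι → ι → ι → M → ℝ}

variable (I e) in
/-- `φ dψ - ψ dφ` -/
def wd (φ ψ : M → ℝ) (a : ι) (y : M) : ℝ := φ y * dv I (e a) ψ y + -(ψ y * dv I (e a) φ y)

variable (I e) in
/-- `μ = Im (conj u du)` -/
def mu (u : M → ℂ) : ι → M → ℝ := wd I e (fun y => (u y).re) fun y => (u y).im

variable (I e) in
/-- `d arg w` -/
def nu (w : M → ℂ) (a : ι) (y : M) : ℝ := (‖w y‖ ^ 2)⁻¹ * mu I e w a y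

variable (I e) in
/-- `σ₁` -/
def sg1 (n : ℝ) (u w : M → ℂ) (a : ι) (y : M) : ℝ := mu I e u a y + n⁻¹ * nu I e w a y

variable (I e) in
/-- the components of the coframe -/
def vG (n : ℝ) (h f : ℝ → ℝ) (u w : M → ℂ) : Fin 4 → ι → M → ℝ :=
  ![fun a y => h (‖w y‖ ^ 2) * dv I (e a) (fun y => ‖w y‖ ^ 2) y,
    fun a y => f (‖w y‖ ^ 2) * sg1 I e n u w a y,
    wd I e (fun y => sq1 (u y)) fun y => (u y).re, wd I e (fun y => sq1 (u y)) fun y => (u y).im]

theorem mu_eq (hu : SA I u y) (a : ι) : mu I e u a y = lm (u y) (dv I (e a) u y) := by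
  rw [mu, wd, dv_re hu, dv_im hu, lm_apply]; ring

theorem sg1_eq (hu : SA I u y) (hw : SA I w y) (n : ℝ) (a : ι) :
    sg1 I e n u w a y = ls n (u y) (w y) (dv I (e a) u y, dv I (e a) w y) := by
  rw [sg1, nu, mu_eq hu, mu_eq hw, ls_apply]; ring

theorem vG_eq (hu : SA I u y) (hw : SA I w y) (h1 : ‖u y‖ < 1) (n : ℝ) (h f : ℝ → ℝ) (i : Fin 4) (a : ι) :
    vG I e n h f u w i a y = cvG I n (h (‖w y‖ ^ 2)) (f (‖w y‖ ^ 2)) u w y i (e a y) := by
  fin_cases i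
  · exact ((congrArg (h _ * ·) (dv_nsq hw _)).trans ((mul_left_comm ..).trans (mul_assoc ..).symm)).trans
      (lG_re n _ (f (‖w y‖ ^ 2)) (u y) _ (dv I (e a) u y, dv I (e a) w y)).symm
  · exact (congrArg _ (sg1_eq hu hw n a)).trans (lG_im ..).symm
  · show wd I e (fun y => sq1 (u y)) (fun y => (u y).re) a y = (lB (u y) (dv I (e a) u y)).re
    rw [wd, dv_sq1 hu h1, dv_re hu, lB_apply]; simp; ring
  · show wd I e (fun y => sq1 (u y)) (fun y => (u y).im) a y = (lB (u y) (dv I (e a) u y)).im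
    rw [wd, dv_sq1 hu h1, dv_im hu, lB_apply]; simp; ring

variable (F : Frm I e P c) {φ ψ : M → ℝ}
include F

theorem sa_wd (hφ : SA I φ y) (hψ : SA I ψ y) (a : ι) : SA I (wd I e φ ψ a) y :=
  (hφ.mul (F.sD a hψ)).add (hψ.mul (F.sD a hφ)).neg

theorem d1_dv (hφ : SA I φ y) (a b : ι) : d1 I e c (fun a => dv I (e a) φ) a b y = 0 := by
  simp only [d1, F.br a b φ y hφ, smul_eq_mul, sub_self]

theorem d1_wd (hφ : SA I φ y) (hψ : SA I ψ y) (a b : ι) : d1 I e c (wd I e φ ψ) a b y =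
    2 * (dv I (e a) φ y * dv I (e b) ψ y - dv I (e b) φ y * dv I (e a) ψ y) := by
  rw [show wd I e φ ψ = fun a y => φ y * dv I (e a) ψ y + -(ψ y * dv I (e a) φ y) from rfl,
    d1_add (fun a => hφ.mul (F.sD a hψ)) fun a => (hψ.mul (F.sD a hφ)).neg,
    d1_neg, d1_mul hφ fun a => F.sD a hψ, d1_mul hψ fun a => F.sD a hφ, d1_dv F hφ, d1_dv F hψ]
  ring

theorem pr_wd (φ ψ : M → ℝ) (a : ι) : ∑ b, P a b y * wd I e φ ψ b y = wd I e φ ψ a y := by
  have := fun φ : M → ℝ => F.projD a φ y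
  simp only [smul_eq_mul] at this
  simp only [wd, mul_add, mul_neg, mul_left_comm (P a _ y), sum_add_distrib, sum_neg_distrib,
    ← mul_sum, this]

theorem sa_mu (hu : SA I u y) (a : ι) : SA I (mu I e u a) y := sa_wd F (fsm_re hu) (fsm_im hu) a

theorem sa_nu (hw : SA I w y) (h0 : w y ≠ 0) (a : ι) : SA I (nu I e w a) y :=
  SA.mul ((sa_nsq hw).inv₀ (by simpa)) (sa_mu F hw a)

theorem sa_sg1 (hu : SA I u y) (hw : SA I w y) (h0 : w y ≠ 0) (n : ℝ) (a : ι) :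
    SA I (sg1 I e n u w a) y := (sa_mu F hu a).add (SA.mul contMDiffAt_const (sa_nu F hw h0 a))

theorem d1_nu (hw : SA I w y) (h0 : w y ≠ 0) (a b : ι) : d1 I e c (nu I e w) a b y = 0 := by
  have h1 : ‖w y‖ ^ 2 ≠ 0 := by simpa
  have k : ∀ a, dv I (e a) (fun y => (‖w y‖ ^ 2)⁻¹) y = _ := fun a =>
    dv_comp (sa_nsq hw).md (hasDerivAt_inv h1).hasFDerivAt
  rw [show nu I e w = fun a y => (‖w y‖ ^ 2)⁻¹ * mu I e w a y from rfl,
    d1_mul ((sa_nsq hw).inv₀ h1) (sa_mu F hw), k, k, mu_eq hw, mu_eq hw, mu,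
    d1_wd F (fsm_re hw) (fsm_im hw)]
  simp only [dv_nsq hw, dv_re hw, dv_im hw, lr_apply, lm_apply,
    ContinuousLinearMap.toSpanSingleton_apply, smul_eq_mul]
  rw [nsq] at h1 ⊢
  field_simp
  ring

variable (hu : SA I u y) (h1 : ‖u y‖ < 1) (n : ℝ) (h f : ℝ → ℝ)
include hu h1

theorem d1_mu (a b : ι) :
    d1 I e c (mu I e u) a b y = 2 * wq (fun i a => vG I e n h f u w i a y) 2 3 a b := by
  have h0 := (sq1_pos h1).ne'
  rw [mu, d1_wd F (fsm_re hu) (fsm_im hu)]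
  simp only [wq, vG, Matrix.cons_val, wd, dv_sq1 hu h1, dv_re hu, dv_im hu, lr_apply]
  field_simp
  linear_combination ((dv I (e b) u y).re * (dv I (e a) u y).im
    - (dv I (e a) u y).re * (dv I (e b) u y).im) * sq1 (u y) ^ 2 * sq1_sq h1

theorem d1_sg1 (hw : SA I w y) (h0 : w y ≠ 0) (a b : ι) :
    d1 I e c (sg1 I e n u w) a b y = 2 * wq (fun i a => vG I e n h f u w i a y) 2 3 a b := by
  rw [show sg1 I e n u w = fun a y => mu I e u a y + n⁻¹ * nu I e w a y from rfl,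
    d1_add (sa_mu F hu) fun a => SA.mul contMDiffAt_const (sa_nu F hw h0 a),
    d1_mul contMDiffAt_const (sa_nu F hw h0), d1_nu F hw h0, d1_mu (w := w) F hu h1 n h f]
  simp

end cz

/-- a profile at `x` -/
structure PrA (h f f1 f2 : ℝ → ℝ) (x : ℝ) : Prop where
  sh : ContDiffAt ℝ ∞ h x
  sf : ContDiffAt ℝ ∞ f x
  sf1 : ContDiffAt ℝ ∞ f1 x
  ph : 0 < h x
  pf : 0 < f x
  df : HasDerivAt f (f1 x * h x) x
  df1 : HasDerivAt f1 (f2 x * h x) x

theorem dv_x {φ : ℝ → ℝ} {d : ℝ} (hw : SA I w y) (hφ : HasDerivAt φ d (‖w y‖ ^ 2)) (X : Met55.VF I M) :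
    dv I X (fun y => φ (‖w y‖ ^ 2)) y = d * dv I X (fun y => ‖w y‖ ^ 2) y :=
  (dv_comp (sa_nsq hw).md hφ.hasFDerivAt).trans (mul_comm _ _)

/-- the structure equations of the model -/
theorem cz_of {ι : Type} [Fintype ι] {e : ι → Met55.VF I M} {P : ι → ι → M → ℝ}
    {c : ι → ι → ι → M → ℝ} (F : Frm I e P c) {o : M → R208.F.Ext E} {O : Set M} (C : Ch I o O u w)
    {n : ℝ} {h f f1 f2 : ℝ → ℝ} (h0 : ∀ y ∈ O, w y ≠ 0) (hp : ∀ y ∈ O, PrA h f f1 f2 (‖w y‖ ^ 2))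
    (on : ∀ y ∈ O, On0 (fun a b => P a b y) fun i a => vG I e n h f u w i a y) :
    Cz I e P c O (vG I e n h f u w) (fun a y => 2 * mu I e u a y) (fun y => f (‖w y‖ ^ 2))
      (fun y => f1 (‖w y‖ ^ 2)) fun y => f2 (‖w y‖ ^ 2) := by
  have sx := fun y hy => sa_nsq (C.sw y hy)
  have sh := fun y hy => (hp y hy).sh.comp_contMDiffAt (f := fun y => ‖w y‖ ^ 2) (sx y hy)
  have sf := fun y hy => (hp y hy).sf.comp_contMDiffAt (f := fun y => ‖w y‖ ^ 2) (sx y hy)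
  have s1 := fun y hy => sa_sq1 (C.su y hy) (C.lt y hy)
  have sσ := fun y hy => sa_sg1 F (C.su y hy) (C.sw y hy) (h0 y hy) n
  have df := fun y hy => dv_x (C.sw y hy) (hp y hy).df
  refine ⟨C.op, fun y hy i a => ?_, fun y hy a => SA.mul contMDiffAt_const (sa_mu F (C.su y hy) a), sf,
    fun y hy => (hp y hy).sf1.comp_contMDiffAt (f := fun y => ‖w y‖ ^ 2) (sx y hy),
    fun y hy => (hp y hy).pf.ne', on, fun y hy a => ?_, fun y hy a => (df y hy _).trans (mul_assoc ..),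
    fun y hy a => (dv_x (C.sw y hy) (hp y hy).df1 _).trans (mul_assoc ..), fun y hy a b => ?_,
    fun y hy a b => ?_, fun y hy a b => ?_, fun y hy a b => ?_, fun y hy a b => ?_⟩
  · fin_cases i
    exacts [SA.mul (sh y hy) (F.sD a (sx y hy)), SA.mul (sf y hy) (sσ y hy a),
      sa_wd F (s1 y hy) (fsm_re (C.su y hy)) a, sa_wd F (s1 y hy) (fsm_im (C.su y hy)) a]
  · simp only [mul_left_comm (P a _ y), ← mul_sum, mu, pr_wd F]
  · have := dv_x (C.sw y hy) ((hp y hy).sh.differentiableAt (by simp)).hasDerivAt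
    refine (d1_mul (sh y hy) (fun a => F.sD a (sx y hy)) a b).trans ?_
    rw [d1_dv F (sx y hy)]
    erw [this, this]
    ring
  · have := (hp y hy).pf.ne'
    refine (d1_mul (sf y hy) (sσ y hy) a b).trans ?_
    rw [d1_sg1 F (C.su y hy) (C.lt y hy) n h f (C.sw y hy) (h0 y hy)]
    erw [df y hy, df y hy]
    simp only [wq, vG, Matrix.cons_val, Function.comp]
    field_simp
  · have := (sq1_pos (C.lt y hy)).ne'
    refine (d1_wd F (s1 y hy) (fsm_re (C.su y hy)) a b).trans ?_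
    simp only [vG, Matrix.cons_val, mu, wd, dv_sq1 (C.su y hy) (C.lt y hy), dv_re (C.su y hy),
      dv_im (C.su y hy), lr_apply]
    field_simp
    linear_combination (-(u y).im * ((dv I (e a) u y).re * (dv I (e b) u y).im
      - (dv I (e b) u y).re * (dv I (e a) u y).im)) * sq1_sq (C.lt y hy)
  · have := (sq1_pos (C.lt y hy)).ne'
    refine (d1_wd F (s1 y hy) (fsm_im (C.su y hy)) a b).trans ?_
    simp only [vG, Matrix.cons_val, mu, wd, dv_sq1 (C.su y hy) (C.lt y hy), dv_re (C.su y hy),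
      dv_im (C.su y hy), lr_apply]
    field_simp
    linear_combination ((u y).re * ((dv I (e a) u y).re * (dv I (e b) u y).im
      - (dv I (e b) u y).re * (dv I (e a) u y).im)) * sq1_sq (C.lt y hy)
  · rw [d1_mul contMDiffAt_const (sa_mu F (C.su y hy)), d1_mu (w := w) F (C.su y hy) (C.lt y hy) n h f]
    simp; ring

end Crest.Agent.X212.Lns95
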